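import Vale.Agent.P272.K.Iface
import Vale.Agent.P272.K.Inv.Consts

/-! P272/K, block TK: the twisted Kähler–Einstein metric from the Aubin–Yau theorem. -/

open scoped Manifold ContDiff ComplexOrder Topology
open MeasureTheory

noncomputable section

namespace Vale.Agent.P272.K.TK

variable {n : ℕ}

lemma cHess_closed' {f : Cm n → ℝ} {z : Cm n} (hf : ContDiffAt ℝ ∞ f z) (i j k : Fin n) :
    dz k (fun y => cHess f y i j) z = dz i (fun y => cHess f y k j) z := by
  have hinf : (∞ : WithTop ℕ∞) + 1 ≤ ∞ := le_of_eq rfl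
  have h1 : ContDiffAt ℝ 2 (dzb j fun y => (f y : ℂ)) z :=
    (contDiffAt_dzb (m := ∞) (ofReal_contDiffAt hf) hinf).of_le
      (by exact WithTop.coe_le_coe.2 le_top)
  exact dz_dz_comm h1

lemma contDiffAt_cHess_inf {f : Cm n → ℝ} {z : Cm n} (hf : ContDiffAt ℝ ∞ f z) (i j : Fin n) :
    ContDiffAt ℝ ∞ (fun y => cHess f y i j) z :=
  contDiffAt_cHess (m := ∞) hf (le_of_eq rfl) i j

lemma posDef_det_pos {M : Matrix (Fin n) (Fin n) ℂ} (hM : M.PosDef) : 0 < M.det.re :=
  (Complex.pos_iff.1 hM.det_pos).1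

variable {X : Type} [TopologicalSpace X] [ChartedSpace (Cm n) X]

theorem twistedKE [IsManifold 𝓘(ℂ, Cm n) ω X] (hAY : AubinYau n X)
    {w : Chart n X → Cm n → Matrix (Fin n) (Fin n) ℂ} (hw : IsKahler w) {a : ℝ} (ha : 0 ≤ a)
    (hnef : NefCanonical w a) : TwistedKE w a := by
  intro ε hε
  obtain ⟨φ, hφ, hpos⟩ := hnef (ε / 2) (half_pos hε)
  have hle : (2 : WithTop ℕ∞) ≤ ∞ := by exact WithTop.coe_le_coe.2 le_top
  have hφ2 : ∀ e x, At e x → ContDiffAt ℝ 2 (φ e) (e x) := fun e x h => (hφ.smooth e x h).of_le hle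
  set χ : Chart n X → Cm n → Matrix (Fin n) (Fin n) ℂ :=
    fun e z => cHess (φ e) z + ((a + ε : ℝ) : ℂ) • w e z with hχdef
  have hχform : IsForm χ := (isForm_canonical hφ2 hφ.change).add ((hw.isForm).smul _)
  have hχpos : ∀ e x, At e x → (χ e (e x)).PosDef := by
    intro e x h
    have h1 := hpos e x h
    have h2 : (((ε / 2 : ℝ) : ℂ) • w e (e x)).PosDef := by
      refine (hw.posDef e x h).smul ?_
      exact_mod_cast half_pos hε
    have h3 : χ e (e x) = (cHess (φ e) (e x) + ((a + ε / 2 : ℝ) : ℂ) • w e (e x)) +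
        ((ε / 2 : ℝ) : ℂ) • w e (e x) := by
      simp only [χ]
      rw [add_assoc, ← add_smul]
      congr 2
      push_cast; ring
    rw [h3]
    exact Matrix.PosDef.posSemidef_add h1 h2
  have hχs : ∀ e x, At e x → ∀ i j, ContDiffAt ℝ ∞ (fun z => χ e z i j) (e x) := by
    intro e x h i j
    exact (contDiffAt_cHess_inf (hφ.smooth e x h) i j).add
      (contDiffAt_const.mul (hw.smooth e x h i j))
  have hχ : IsKahler χ := by
    refine ⟨⟨hχs, hχpos, fun e e' x h h' => hχform e e' x h h'⟩, ?_⟩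
    intro e x h i j k
    have hd : ∀ (l p q : Fin n), dz l (fun z => χ e z p q) (e x) =
        dz l (fun z => cHess (φ e) z p q) (e x) +
          ((a + ε : ℝ) : ℂ) * dz l (fun z => w e z p q) (e x) := by
      intro l p q
      have h1 : DifferentiableAt ℝ (fun z => cHess (φ e) z p q) (e x) :=
        (contDiffAt_cHess_inf (hφ.smooth e x h) p q).differentiableAt (by simp)
      have h2 : DifferentiableAt ℝ (fun z => w e z p q) (e x) :=
        (hw.smooth e x h p q).differentiableAt (by simp)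
      have h3 : (fun z => χ e z p q) = fun z => cHess (φ e) z p q + ((a + ε : ℝ) : ℂ) * w e z p q := by
        funext z; rfl
      rw [h3, dz_add h1 (h2.const_mul _), dz_const_mul _ h2]
    rw [hd, hd, cHess_closed' (hφ.smooth e x h), hw.closed e x h]
  -- the function `F`
  have hFinv : ∀ e e' x, At e x → At e' x →
      φ e (e x) - Real.log (χ e (e x)).det.re = φ e' (e' x) - Real.log (χ e' (e' x)).det.re := by
    intro e e' x h h'
    have hJ : 0 < ‖(jacM e e' x).det‖ ^ 2 :=
      pow_pos (norm_pos_iff.2 (jacM_det_ne_zero h h')) 2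
    rw [hφ.change e e' x h h', det_form_re hχform h h',
      Real.log_mul hJ.ne' (posDef_det_pos (hχpos e' x h')).ne']
    ring
  let F : X → ℝ := fun x => φ (chartAt (Cm n) x) (chartAt (Cm n) x x) -
    Real.log (χ (chartAt (Cm n) x) (chartAt (Cm n) x x)).det.re
  have hF : ∀ e x, At e x → F x = φ e (e x) - Real.log (χ e (e x)).det.re := fun e x h =>
    hFinv _ _ _ ⟨chart_mem_atlas _ _, mem_chart_source _ _⟩ h
  have hFs : SmoothFn (n := n) F := by
    intro e x h
    have h1 : (fun z => F (e.symm z)) =ᶠ[𝓝 (e x)] fun z =>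
        φ e z - Real.log (χ e z).det.re := by
      filter_upwards [h.nhds_at h] with z hz
      rw [hF e (e.symm z) hz.2.1, e.right_inv hz.1]
    refine ContDiffAt.congr_of_eventuallyEq ?_ h1
    refine (hφ.smooth e x h).sub (ContDiffAt.log ?_ (posDef_det_pos (hχpos e x h)).ne')
    exact Complex.reCLM.contDiff.contDiffAt.comp _ (contDiffAt_det (hχs e x h))
  obtain ⟨u, hu, hup, hueq⟩ := hAY χ hχ F hFs
  have hu2 : ∀ e x, At e x → ContDiffAt ℝ 2 (fun z => u (e.symm z)) (e x) :=
    fun e x h => (hu e x h).of_le hle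
  refine ⟨fun e z => φ e z + u (e.symm z), ⟨fun e x h => (hφ.smooth e x h).add (hu e x h), ?_⟩,
    ?_, ?_⟩
  · intro e e' x h h'
    rw [h.left_inv, h'.left_inv, hφ.change e e' x h h']
    ring
  · intro e x h
    have := hup e x h
    rw [cHess_add (hφ2 e x h) (hu2 e x h)]
    have e1 : addH χ u e (e x) = cHess (φ e) (e x) + cHess (fun y => u (e.symm y)) (e x) +
        ((a + ε : ℝ) : ℂ) • w e (e x) := by
      simp only [addH, χ]; abel
    rwa [e1] at this
  · intro e x h
    have h1 : (fun z => Real.log (cHess (fun z => φ e z + u (e.symm z)) z +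
        ((a + ε : ℝ) : ℂ) • w e z).det.re) =ᶠ[𝓝 (e x)] fun z => φ e z + u (e.symm z) := by
      filter_upwards [h.nhds_at h] with z hz
      have hat := hz.2.1
      have hz' : e (e.symm z) = z := e.right_inv hz.1
      have h2 := hueq e (e.symm z) hat
      rw [hF e (e.symm z) hat, hz'] at h2
      have h3 : cHess (fun z => φ e z + u (e.symm z)) z = cHess (φ e) z +
          cHess (fun y => u (e.symm y)) z := by
        have := cHess_add (hφ2 e (e.symm z) hat) (hu2 e (e.symm z) hat)
        rwa [hz'] at this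
      have e1 : cHess (fun z => φ e z + u (e.symm z)) z + ((a + ε : ℝ) : ℂ) • w e z =
          addH χ u e z := by
        rw [h3]; simp only [addH, χ]; abel
      rw [e1]
      linarith
    rw [cHess_congr h1]
    have e2 : -cHess (fun z => φ e z + u (e.symm z)) (e x) +
        (cHess (fun z => φ e z + u (e.symm z)) (e x) + ((a + ε : ℝ) : ℂ) • w e (e x)) =
        ((a + ε : ℝ) : ℂ) • w e (e x) := by abel
    have h4 : (((a + ε : ℝ) : ℂ) • w e (e x)).PosSemidef := by
      refine (hw.posDef e x h).posSemidef.smul ?_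
      have : (0 : ℝ) ≤ a + ε := by positivity
      exact_mod_cast this
    rw [← e2] at h4
    exact h4

end Vale.Agent.P272.K.TK
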